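import Vale.Agent.P054.Fin.GOut
import Vale.Agent.P054.R.Basic

/-! P054: final arithmetic, from Theorem R and the output of block G. -/

set_option linter.all false
set_option autoImplicit false

namespace Vale.Agent.P054.Fin

open Finset Matrix Vale.Agent.P054.R

theorem eq_or_neg {u v : V3} (h : crossProduct u v = 0)
    (h2 : ∑ k, u k ^ 2 = ∑ k, v k ^ 2) : u = v ∨ u = -v := by
  have e0 := congrFun h 0
  have e1 := congrFun h 1
  have e2 := congrFun h 2
  simp only [cross_apply, Matrix.cons_val_zero, Matrix.cons_val_one, Matrix.cons_val,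
    Pi.zero_apply] at e0 e1 e2
  simp only [Fin.sum_univ_three] at h2
  have key : ((u 0 - v 0) ^ 2 + (u 1 - v 1) ^ 2 + (u 2 - v 2) ^ 2) *
      ((u 0 + v 0) ^ 2 + (u 1 + v 1) ^ 2 + (u 2 + v 2) ^ 2) = 0 := by
    have h3 : ((u 0 - v 0) ^ 2 + (u 1 - v 1) ^ 2 + (u 2 - v 2) ^ 2) *
      ((u 0 + v 0) ^ 2 + (u 1 + v 1) ^ 2 + (u 2 + v 2) ^ 2) =
      (u 0 ^ 2 + u 1 ^ 2 + u 2 ^ 2 - (v 0 ^ 2 + v 1 ^ 2 + v 2 ^ 2)) ^ 2 +
      4 * ((u 1 * v 2 - u 2 * v 1) ^ 2 + (u 2 * v 0 - u 0 * v 2) ^ 2 +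
        (u 0 * v 1 - u 1 * v 0) ^ 2) := by ring
    rw [h3, h2, e0, e1, e2]
    ring
  rcases mul_eq_zero.1 key with h4 | h4
  · left
    have a0 : (u 0 - v 0) ^ 2 = 0 := by nlinarith [sq_nonneg (u 0 - v 0), sq_nonneg (u 1 - v 1), sq_nonneg (u 2 - v 2)]
    have a1 : (u 1 - v 1) ^ 2 = 0 := by nlinarith [sq_nonneg (u 0 - v 0), sq_nonneg (u 1 - v 1), sq_nonneg (u 2 - v 2)]
    have a2 : (u 2 - v 2) ^ 2 = 0 := by nlinarith [sq_nonneg (u 0 - v 0), sq_nonneg (u 1 - v 1), sq_nonneg (u 2 - v 2)]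
    funext i
    fin_cases i
    · simpa [sub_eq_zero] using a0
    · simpa [sub_eq_zero] using a1
    · simpa [sub_eq_zero] using a2
  · right
    have a0 : (u 0 + v 0) ^ 2 = 0 := by nlinarith [sq_nonneg (u 0 + v 0), sq_nonneg (u 1 + v 1), sq_nonneg (u 2 + v 2)]
    have a1 : (u 1 + v 1) ^ 2 = 0 := by nlinarith [sq_nonneg (u 0 + v 0), sq_nonneg (u 1 + v 1), sq_nonneg (u 2 + v 2)]
    have a2 : (u 2 + v 2) ^ 2 = 0 := by nlinarith [sq_nonneg (u 0 + v 0), sq_nonneg (u 1 + v 1), sq_nonneg (u 2 + v 2)]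
    funext i
    fin_cases i
    · simpa using eq_neg_of_add_eq_zero_left (pow_eq_zero_iff (two_ne_zero)|>.1 a0)
    · simpa using eq_neg_of_add_eq_zero_left (pow_eq_zero_iff (two_ne_zero)|>.1 a1)
    · simpa using eq_neg_of_add_eq_zero_left (pow_eq_zero_iff (two_ne_zero)|>.1 a2)

theorem cross_zero_of_common {u v b : V3} (hb : b ≠ 0) (hu : crossProduct u b = 0)
    (hv : crossProduct v b = 0) : crossProduct u v = 0 := by
  have e0 := congrFun hu 0
  have e1 := congrFun hu 1
  have e2 := congrFun hu 2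
  have f0 := congrFun hv 0
  have f1 := congrFun hv 1
  have f2 := congrFun hv 2
  simp only [cross_apply, Matrix.cons_val_zero, Matrix.cons_val_one, Matrix.cons_val,
    Pi.zero_apply] at e0 e1 e2 f0 f1 f2
  have hb' : b 0 ≠ 0 ∨ b 1 ≠ 0 ∨ b 2 ≠ 0 := by
    by_contra h
    push Not at h
    apply hb
    funext i
    fin_cases i
    · exact h.1
    · exact h.2.1
    · exact h.2.2
  have g0 : u 1 * v 2 - u 2 * v 1 = 0 := by
    rcases hb' with h | h | h
    · apply mul_left_cancel₀ h; linear_combination (-(u 0)) * f0 - (v 2) * e2 - (v 1) * e1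
    · apply mul_left_cancel₀ h; linear_combination (v 1) * e0 - (u 1) * f0
    · apply mul_left_cancel₀ h; linear_combination (v 2) * e0 - (u 2) * f0
  have g1 : u 2 * v 0 - u 0 * v 2 = 0 := by
    rcases hb' with h | h | h
    · apply mul_left_cancel₀ h; linear_combination (v 0) * e1 - (u 0) * f1
    · apply mul_left_cancel₀ h; linear_combination (-(u 1)) * f1 - (v 0) * e0 - (v 2) * e2
    · apply mul_left_cancel₀ h; linear_combination (v 2) * e1 - (u 2) * f1
  have g2 : u 0 * v 1 - u 1 * v 0 = 0 := by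
    rcases hb' with h | h | h
    · apply mul_left_cancel₀ h; linear_combination (v 0) * e2 - (u 0) * f2
    · apply mul_left_cancel₀ h; linear_combination (v 1) * e2 - (u 1) * f2
    · apply mul_left_cancel₀ h; linear_combination (-(u 2)) * f2 - (v 1) * e1 - (v 0) * e0
  funext i
  fin_cases i
  · simpa [cross_apply] using g0
  · simpa [cross_apply] using g1
  · simpa [cross_apply] using g2

open scoped Classical in
/-- a line contains at most `2 τ` points of `P` -/
theorem on_line_le (P : Finset V3) (x b : V3) (hb : b ≠ 0) : on P x b ≤ 2 * dn P := by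
  unfold on
  rcases Finset.eq_empty_or_nonempty (P.filter (fun a => OnL x b a)) with h | ⟨a0, ha0⟩
  · rw [h]; simp
  · have h0 := Finset.mem_filter.1 ha0
    have h1 : (P.filter (fun a => OnL x b a)).card ≤
        2 * ((P.filter (fun a => OnL x b a)).image (fun a => ∑ k, (a k - a0 k) ^ 2)).card := by
      apply Finset.card_le_mul_card_image
      intro r hr
      obtain ⟨a1, ha1, hr1⟩ := Finset.mem_image.1 hr
      have hsub : ((P.filter (fun a => OnL x b a)).filter
          (fun a => ∑ k, (a k - a0 k) ^ 2 = r)) ⊆ {a1, a0 - (a1 - a0)} := by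
        intro a ha
        obtain ⟨ha', har⟩ := Finset.mem_filter.1 ha
        have hl : ∀ c ∈ P.filter (fun a => OnL x b a), crossProduct (c - a0) b = 0 := by
          intro c hc
          have e1 : crossProduct (c - x) b = 0 := (Finset.mem_filter.1 hc).2
          have e2 : crossProduct (a0 - x) b = 0 := h0.2
          have : c - a0 = (c - x) - (a0 - x) := by abel
          rw [this, map_sub, LinearMap.sub_apply, e1, e2, sub_zero]
        have hc := cross_zero_of_common hb (hl a ha') (hl a1 ha1)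
        have hs : ∑ k, (a - a0) k ^ 2 = ∑ k, (a1 - a0) k ^ 2 := by
          simp only [Pi.sub_apply]
          rw [har, ← hr1]
        rcases eq_or_neg hc hs with h3 | h3
        · rw [Finset.mem_insert]
          left
          exact sub_left_injective h3
        · rw [Finset.mem_insert, Finset.mem_singleton]
          right
          rw [sub_eq_add_neg a0, ← h3]
          abel
      exact (Finset.card_le_card hsub).trans Finset.card_le_two
    refine h1.trans (Nat.mul_le_mul_left 2 ?_)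
    unfold dn
    apply Finset.card_le_card
    intro r hr
    obtain ⟨a1, ha1, hr1⟩ := Finset.mem_image.1 hr
    rw [Finset.mem_image]
    exact ⟨(a1, a0), Finset.mk_mem_product (Finset.mem_filter.1 ha1).1 h0.1, hr1⟩

theorem on_mono {S T : Finset V3} (h : S ⊆ T) (x b : V3) : on S x b ≤ on T x b := by
  classical
  unfold on
  exact Finset.card_le_card (Finset.filter_subset_filter _ h)

theorem card_le_rho (P : Finset V3) (g : Iso) :
    (M g P P).card ≤ rho (M g P P) + 2 * dn P := by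
  classical
  obtain ⟨x, b, hb, h⟩ := rho_spec (M g P P)
  have h1 := off_add_on (M g P P) x b
  have h2 : on (M g P P) x b ≤ on P x b := on_mono (Finset.filter_subset _ _) x b
  have h3 := on_line_le P x b hb
  omega

theorem exists_big (d c B : ℝ) (hd : 0 < d) (hc : 0 < c) :
    ∃ n₀ : ℕ, 1 ≤ n₀ ∧ ∀ n : ℕ, n₀ ≤ n → B < c * (n : ℝ) ^ d := by
  have h := (tendsto_rpow_atTop hd).comp tendsto_natCast_atTop_atTop
  have h2 := (h.eventually_gt_atTop (B / c))
  obtain ⟨n0, hn0⟩ := Filter.eventually_atTop.1 h2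
  refine ⟨max n0 1, le_max_right _ _, fun n hn => ?_⟩
  have h3 := hn0 n ((le_max_left _ _).trans hn)
  simp only [Function.comp_apply] at h3
  rw [div_lt_iff₀ hc] at h3
  linarith [mul_comm ((n : ℝ) ^ d) c]

open scoped Classical in
/-- counting: the rich triples are controlled by the functional of block R -/
theorem rich_le (P : Finset V3) (r : ℝ) (K : ℕ) (hr : (2 * K : ℝ) ≤ r) (hr2 : (4 * dn P : ℝ) ≤ r) :
    ∃ G : Finset Iso, (∀ g ∈ G, Orth g) ∧
      ((richTriples P r).card : ℝ) ≤ 8 * Rf K G P P := by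
  classical
  have hex : ∀ t ∈ richTriples P r, ∃ g : Iso, Orth g ∧ act g t.1.1 = t.2.1 ∧
      act g t.1.2.1 = t.2.2.1 ∧ act g t.1.2.2 = t.2.2.2 ∧ r ≤ ((M g P P).card : ℝ) := by
    intro t ht
    exact (Finset.mem_filter.1 ht).2.2
  choose! f hf using hex
  refine ⟨(richTriples P r).image f, ?_, ?_⟩
  · intro g hg
    obtain ⟨t, ht, rfl⟩ := Finset.mem_image.1 hg
    exact (hf t ht).1
  · have h1 : (richTriples P r).card =
        ∑ g ∈ (richTriples P r).image f, ((richTriples P r).filter (fun t => f t = g)).card :=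
      Finset.card_eq_sum_card_image f _
    rw [h1]
    push_cast
    unfold Rf
    rw [Finset.mul_sum]
    apply Finset.sum_le_sum
    intro g hg
    obtain ⟨t0, ht0, rfl⟩ := Finset.mem_image.1 hg
    set g := f t0 with hgdef
    have hM : r ≤ ((M g P P).card : ℝ) := (hf t0 ht0).2.2.2.2
    have hfib : ((richTriples P r).filter (fun t => f t = g)).card ≤ (M g P P).card ^ 3 := by
      have hinj : ((richTriples P r).filter (fun t => f t = g)).card ≤
          ((M g P P) ×ˢ (M g P P) ×ˢ (M g P P)).card := by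
        apply Finset.card_le_card_of_injOn (fun t => t.1)
        · intro t ht
          obtain ⟨ht1, ht2⟩ := Finset.mem_filter.1 (Finset.mem_coe.1 ht)
          obtain ⟨q1, q2, q3, q4, q5⟩ := hf t ht1
          rw [ht2] at q2 q3 q4
          have hmem := (Finset.mem_filter.1 ht1).1
          rw [Finset.mem_product, Finset.mem_product, Finset.mem_product, Finset.mem_product,
            Finset.mem_product] at hmem
          simp only [Finset.coe_product, Set.mem_prod, Finset.mem_coe]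
          unfold Vale.Agent.P054.R.M
          refine ⟨Finset.mem_filter.2 ⟨hmem.1.1, ?_⟩, Finset.mem_filter.2 ⟨hmem.1.2.1, ?_⟩,
            Finset.mem_filter.2 ⟨hmem.1.2.2, ?_⟩⟩
          · rw [q2]; exact hmem.2.1
          · rw [q3]; exact hmem.2.2.1
          · rw [q4]; exact hmem.2.2.2
        · intro t ht t' ht' htt
          obtain ⟨ht1, ht2⟩ := Finset.mem_filter.1 (Finset.mem_coe.1 ht)
          obtain ⟨ht1', ht2'⟩ := Finset.mem_filter.1 (Finset.mem_coe.1 ht')
          obtain ⟨q1, q2, q3, q4, q5⟩ := hf t ht1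
          obtain ⟨p1, p2, p3, p4, p5⟩ := hf t' ht1'
          rw [ht2] at q2 q3 q4
          rw [ht2'] at p2 p3 p4
          have htt' : t.1 = t'.1 := htt
          refine Prod.ext htt' ?_
          refine Prod.ext ?_ (Prod.ext ?_ ?_)
          · rw [← q2, ← p2, htt']
          · rw [← q3, ← p3, htt']
          · rw [← q4, ← p4, htt']
      refine hinj.trans ?_
      rw [Finset.card_product, Finset.card_product]
      apply le_of_eq
      ring
    have hrho := card_le_rho P g
    have hrho' : ((M g P P).card : ℝ) ≤ (rho (M g P P) : ℝ) + 2 * dn P := by exact_mod_cast hrho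
    have h2 : ((M g P P).card : ℝ) ≤ 2 * (rho (M g P P) : ℝ) := by linarith
    have hK : K ≤ rho (M g P P) := by
      have : (K : ℝ) ≤ (rho (M g P P) : ℝ) := by linarith
      exact_mod_cast this
    rw [if_pos hK]
    calc (((richTriples P r).filter (fun t => f t = g)).card : ℝ) ≤ ((M g P P).card : ℝ) ^ 3 := by
          exact_mod_cast hfib
      _ ≤ (2 * (rho (M g P P) : ℝ)) ^ 3 := pow_le_pow_left₀ (Nat.cast_nonneg _) h2 3
      _ = 8 * ((rho (M g P P) : ℕ) : ℝ) ^ 3 := by ring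

/-- Theorem R and block G give the lower bound for the number of squared distances. -/
theorem main_of (hR : RStmt) (hG : GOut) : ∀ d : ℝ, 0 < d → ∃ n₀ : ℕ, ∀ P : Finset (Fin 3 → ℝ),
    n₀ ≤ P.card → (P.card : ℝ) ^ ((2 : ℝ) / 3 - d) ≤ (dn P : ℝ) := by
  intro d hd
  obtain ⟨K, C, hC, hR'⟩ := hR d hd
  obtain ⟨c, hc, n1, hG'⟩ := hG d hd
  obtain ⟨n2, hn2, h2⟩ := exists_big d c (max (max 4 (2 * K)) (8 * C)) hd hc
  refine ⟨max n1 n2, fun P hP => ?_⟩
  by_contra hcon
  push Not at hcon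
  have hn1 : n1 ≤ P.card := (le_max_left _ _).trans hP
  have hn2' : n2 ≤ P.card := (le_max_right _ _).trans hP
  have hbig := h2 P.card hn2'
  have hP1 : 1 ≤ P.card := hn2.trans hn2'
  have hn : (1 : ℝ) ≤ P.card := by exact_mod_cast hP1
  have hn0 : (0 : ℝ) < P.card := by linarith
  have hτ1 : 1 ≤ dn P := by
    obtain ⟨a, ha⟩ := Finset.card_pos.1 (by omega : 0 < P.card)
    unfold dn
    exact Finset.card_pos.2 ⟨_, Finset.mem_image_of_mem _ (Finset.mk_mem_product ha ha)⟩
  have hτ : (0 : ℝ) < dn P := by exact_mod_cast hτ1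
  have hgo := hG' P hn1 hcon.le
  set n : ℝ := (P.card : ℝ) with hndef
  set τ : ℝ := (dn P : ℝ) with hτdef
  have hpos : ∀ s : ℝ, 0 < n ^ s := fun s => Real.rpow_pos_of_pos hn0 s
  have b4 : 4 < c * n ^ d := lt_of_le_of_lt ((le_max_left _ _).trans (le_max_left _ _)) hbig
  have bK : 2 * (K : ℝ) < c * n ^ d := lt_of_le_of_lt ((le_max_right _ _).trans (le_max_left _ _)) hbig
  have bC : 8 * C < c * n ^ d := lt_of_le_of_lt (le_max_right _ _) hbig
  have hτle : τ ≤ n ^ ((2 : ℝ) / 3 - d) := hcon.le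
  have hτ2 : τ ^ 2 ≤ n ^ ((4 : ℝ) / 3 - 2 * d) := by
    calc τ ^ 2 ≤ (n ^ ((2 : ℝ) / 3 - d)) ^ 2 := pow_le_pow_left₀ hτ.le hτle 2
      _ = n ^ ((4 : ℝ) / 3 - 2 * d) := by
        rw [← Real.rpow_natCast, ← Real.rpow_mul hn0.le]
        congr 1
        push_cast
        ring
  have hτ3 : τ ^ 3 ≤ n ^ ((2 : ℝ) - 3 * d) := by
    calc τ ^ 3 ≤ (n ^ ((2 : ℝ) / 3 - d)) ^ 3 := pow_le_pow_left₀ hτ.le hτle 3
      _ = n ^ ((2 : ℝ) - 3 * d) := by
        rw [← Real.rpow_natCast, ← Real.rpow_mul hn0.le]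
        congr 1
        push_cast
        ring
  have hr : c * n ^ ((2 : ℝ) / 3 + 2 * d) ≤ c * n ^ 2 / τ ^ 2 := by
    rw [le_div_iff₀ (by positivity), mul_assoc]
    apply mul_le_mul_of_nonneg_left _ hc.le
    calc n ^ ((2 : ℝ) / 3 + 2 * d) * τ ^ 2
        ≤ n ^ ((2 : ℝ) / 3 + 2 * d) * n ^ ((4 : ℝ) / 3 - 2 * d) :=
          mul_le_mul_of_nonneg_left hτ2 (hpos _).le
      _ = n ^ (2 : ℝ) := by rw [← Real.rpow_add hn0]; congr 1; ring
      _ = n ^ 2 := Real.rpow_two n
  have hr1 : (2 * K : ℝ) ≤ c * n ^ 2 / τ ^ 2 := by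
    refine le_trans ?_ hr
    refine bK.le.trans ?_
    apply mul_le_mul_of_nonneg_left _ hc.le
    exact Real.rpow_le_rpow_of_exponent_le hn (by linarith)
  have hr2 : (4 * dn P : ℝ) ≤ c * n ^ 2 / τ ^ 2 := by
    refine le_trans ?_ hr
    calc (4 * dn P : ℝ) = 4 * τ := rfl
      _ ≤ (c * n ^ d) * n ^ ((2 : ℝ) / 3 - d) :=
          mul_le_mul b4.le hτle hτ.le (by positivity)
      _ = c * n ^ ((2 : ℝ) / 3) := by
          rw [mul_assoc, ← Real.rpow_add hn0]
          congr 2
          ring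
      _ ≤ c * n ^ ((2 : ℝ) / 3 + 2 * d) := by
          apply mul_le_mul_of_nonneg_left _ hc.le
          exact Real.rpow_le_rpow_of_exponent_le hn (by linarith)
  obtain ⟨G, hGo, hGl⟩ := rich_le P (c * n ^ 2 / τ ^ 2) K hr1 hr2
  have hRG := hR' P P G hGo
  have h3 : c * n ^ 6 / τ ^ 3 ≤ 8 * (C * (n * n) ^ (2 + d)) :=
    hgo.trans (hGl.trans (by linarith))
  have h4 : c * n ^ ((4 : ℝ) + 3 * d) ≤ c * n ^ 6 / τ ^ 3 := by
    rw [le_div_iff₀ (by positivity), mul_assoc]
    apply mul_le_mul_of_nonneg_left _ hc.le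
    calc n ^ ((4 : ℝ) + 3 * d) * τ ^ 3
        ≤ n ^ ((4 : ℝ) + 3 * d) * n ^ ((2 : ℝ) - 3 * d) :=
          mul_le_mul_of_nonneg_left hτ3 (hpos _).le
      _ = n ^ (6 : ℝ) := by rw [← Real.rpow_add hn0]; congr 1; ring
      _ = n ^ 6 := by rw [← Real.rpow_natCast]; norm_num
  have h5 : (n * n) ^ (2 + d) = n ^ ((4 : ℝ) + 2 * d) := by
    rw [Real.mul_rpow hn0.le hn0.le, ← Real.rpow_add hn0]
    congr 1
    ring
  rw [h5] at h3
  have h6 : n ^ ((4 : ℝ) + 3 * d) = n ^ ((4 : ℝ) + 2 * d) * n ^ d := by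
    rw [← Real.rpow_add hn0]
    congr 1
    ring
  rw [h6] at h4
  have h7 : n ^ ((4 : ℝ) + 2 * d) * (c * n ^ d) ≤ n ^ ((4 : ℝ) + 2 * d) * (8 * C) := by
    nlinarith [h3, h4]
  have h8 := le_of_mul_le_mul_left h7 (hpos _)
  linarith

end Vale.Agent.P054.Fin
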