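import Mathlib

/-! P054: from the statement with squared distances in `Fin 3 → ℝ` to Euclidean space. -/

set_option autoImplicit false
set_option linter.all false

namespace Vale.Agent.P054.Fin

open Finset

/-- The goal: `n` points of `R^3` determine at least `n^(2/3 - δ)` squared distances
(`0` included), for `n` large. -/
def MainStmt : Prop :=
  ∀ δ : ℝ, 0 < δ → ∃ n0 : ℕ, ∀ P : Finset (Fin 3 → ℝ), n0 ≤ P.card →
    (P.card : ℝ) ^ ((2 : ℝ) / 3 - δ) ≤
      (((P ×ˢ P).image (fun q => ∑ k, (q.1 k - q.2 k) ^ 2)).card : ℝ)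

open scoped Classical in
theorem space_two_thirds (H : MainStmt) (ε : ℝ) (hε : 0 < ε) : ∃ c : ℝ, 0 < c ∧
    ∀ P : Finset (EuclideanSpace ℝ (Fin 3)), 2 ≤ P.card →
      c * (P.card : ℝ) ^ ((2 : ℝ) / 3 - ε) ≤
        (((P.offDiag).image (fun p => dist p.1 p.2)).card : ℝ) := by
  obtain ⟨n0, h0⟩ := H ε hε
  refine ⟨min (1 / 2) (1 / ((n0 : ℝ) + 1)), lt_min (by norm_num) (by positivity), ?_⟩
  intro P hP
  have hn1 : (1 : ℝ) ≤ P.card := by exact_mod_cast (by omega : 1 ≤ P.card)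
  have hne : (P.offDiag).Nonempty := by
    obtain ⟨a, ha, b, hb, hab⟩ := Finset.one_lt_card.1 (show 1 < P.card by omega)
    exact ⟨(a, b), Finset.mem_offDiag.2 ⟨ha, hb, hab⟩⟩
  have hD1 : (1 : ℝ) ≤ (((P.offDiag).image (fun p => dist p.1 p.2)).card : ℝ) := by
    exact_mod_cast Finset.card_pos.2 (hne.image _)
  by_cases hn : n0 ≤ P.card
  · -- the large case
    set Q : Finset (Fin 3 → ℝ) := P.image (fun p => p.ofLp) with hQ
    have hinj : Function.Injective (fun p : EuclideanSpace ℝ (Fin 3) => p.ofLp) := by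
      intro p q hpq
      ext k
      exact congrFun hpq k
    have hQc : Q.card = P.card := Finset.card_image_of_injective _ hinj
    have h1 := h0 Q (by rw [hQc]; exact hn)
    rw [hQc] at h1
    have hsub : (Q ×ˢ Q).image (fun q => ∑ k, (q.1 k - q.2 k) ^ 2) ⊆
        insert 0 (((P.offDiag).image (fun p => dist p.1 p.2)).image (fun r => r ^ 2)) := by
      intro r hr
      obtain ⟨⟨x, y⟩, hxy, rfl⟩ := Finset.mem_image.1 hr
      rw [Finset.mem_product] at hxy
      obtain ⟨p, hp, hpx⟩ := Finset.mem_image.1 hxy.1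
      obtain ⟨q, hq, hqy⟩ := Finset.mem_image.1 hxy.2
      simp only at hpx hqy
      rw [Finset.mem_insert]
      by_cases hpq : p = q
      · left
        subst hpq
        simp only [← hpx, ← hqy, sub_self]
        norm_num
      · right
        rw [Finset.mem_image]
        refine ⟨dist p q, Finset.mem_image.2 ⟨(p, q), Finset.mem_offDiag.2 ⟨hp, hq, hpq⟩, rfl⟩, ?_⟩
        rw [EuclideanSpace.dist_eq, Real.sq_sqrt (Finset.sum_nonneg (fun _ _ => sq_nonneg _))]
        refine Finset.sum_congr rfl (fun k _ => ?_)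
        rw [Real.dist_eq, sq_abs, ← hpx, ← hqy]
    have h2 : ((Q ×ˢ Q).image (fun q => ∑ k, (q.1 k - q.2 k) ^ 2)).card ≤
        ((P.offDiag).image (fun p => dist p.1 p.2)).card + 1 :=
      (Finset.card_le_card hsub).trans ((Finset.card_insert_le _ _).trans
        (Nat.add_le_add_right Finset.card_image_le 1))
    have h3 : (((Q ×ˢ Q).image (fun q => ∑ k, (q.1 k - q.2 k) ^ 2)).card : ℝ) ≤
        (((P.offDiag).image (fun p => dist p.1 p.2)).card : ℝ) + 1 := by exact_mod_cast h2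
    have h4 : (0 : ℝ) ≤ (P.card : ℝ) ^ ((2 : ℝ) / 3 - ε) := by positivity
    calc min (1 / 2) (1 / ((n0 : ℝ) + 1)) * (P.card : ℝ) ^ ((2 : ℝ) / 3 - ε)
        ≤ 1 / 2 * (P.card : ℝ) ^ ((2 : ℝ) / 3 - ε) :=
          mul_le_mul_of_nonneg_right (min_le_left _ _) h4
      _ ≤ _ := by linarith
  · -- the small case
    have hn' : (P.card : ℝ) ≤ n0 := by exact_mod_cast (not_le.1 hn).le
    have h4 : (P.card : ℝ) ^ ((2 : ℝ) / 3 - ε) ≤ P.card := by
      calc (P.card : ℝ) ^ ((2 : ℝ) / 3 - ε) ≤ (P.card : ℝ) ^ (1 : ℝ) :=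
            Real.rpow_le_rpow_of_exponent_le hn1 (by linarith)
        _ = P.card := Real.rpow_one _
    have h5 : (0 : ℝ) ≤ (P.card : ℝ) ^ ((2 : ℝ) / 3 - ε) := by positivity
    calc min (1 / 2) (1 / ((n0 : ℝ) + 1)) * (P.card : ℝ) ^ ((2 : ℝ) / 3 - ε)
        ≤ 1 / ((n0 : ℝ) + 1) * (P.card : ℝ) ^ ((2 : ℝ) / 3 - ε) :=
          mul_le_mul_of_nonneg_right (min_le_right _ _) h5
      _ ≤ 1 / ((n0 : ℝ) + 1) * ((n0 : ℝ) + 1) :=
          mul_le_mul_of_nonneg_left (by linarith) (by positivity)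
      _ = 1 := by field_simp
      _ ≤ _ := hD1

end Vale.Agent.P054.Fin
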