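import Vale.Agent.P054.Fin.Assemble
import Vale.Agent.P054.Fin.Final

/-! P054: Theorem R and block G give `g_3(n) ≥ c n^(2/3 - ε)` in Euclidean space. -/

set_option autoImplicit false
set_option linter.all false

namespace Vale.Agent.P054.Fin

open Finset Vale.Agent.P054.R

theorem mainStmt_of (hR : RStmt) (hG : GOut) : MainStmt := by
  intro d hd
  obtain ⟨n0, h⟩ := main_of hR hG d hd
  refine ⟨n0, fun P hP => ?_⟩
  have h1 := h P hP
  unfold dn at h1
  convert h1

open scoped Classical in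
theorem euclid_of (hR : RStmt) (hG : GOut) (ε : ℝ) (hε : 0 < ε) : ∃ c : ℝ, 0 < c ∧
    ∀ P : Finset (EuclideanSpace ℝ (Fin 3)), 2 ≤ P.card →
      c * (P.card : ℝ) ^ ((2 : ℝ) / 3 - ε) ≤
        (((P.offDiag).image (fun p => dist p.1 p.2)).card : ℝ) :=
  space_two_thirds (mainStmt_of hR hG) ε hε

end Vale.Agent.P054.Fin
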