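import Vale.Agent.P054.Fin.FinalA

/-! P054, final arithmetic with the form `GStmt2` of the output of block G (loss `n^(-δ/2)`). -/

set_option autoImplicit false
set_option linter.all false

namespace Vale.Agent.P054.Fin

open Finset Matrix Vale.Agent.P054.R

/-- Output of block G: if there are few distances, there are at least `n^(-δ/2) n^6 / τ^3` pairs of
congruent triples that are matched by an isometry with at least `n^(-δ/2) n^2 / τ^2` matched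
points. -/
def GStmt2 : Prop := ∀ δ : ℝ, 0 < δ → ∃ n0 : ℕ, ∀ P : Finset V3, n0 ≤ P.card →
  ((dst P).card : ℝ) ≤ (P.card : ℝ) ^ ((2 : ℝ) / 3 - δ) →
  ∃ S : Finset ((V3 × V3 × V3) × (V3 × V3 × V3)),
    (∀ q ∈ S, q.1.1 ∈ P ∧ q.1.2.1 ∈ P ∧ q.1.2.2 ∈ P ∧ q.2.1 ∈ P ∧ q.2.2.1 ∈ P ∧ q.2.2.2 ∈ P ∧
      ∃ g : Iso, Orth g ∧ act g q.1.1 = q.2.1 ∧ act g q.1.2.1 = q.2.2.1 ∧
        act g q.1.2.2 = q.2.2.2 ∧
        (P.card : ℝ) ^ (-(δ / 2)) * ((P.card : ℝ) ^ 2 / ((dst P).card : ℝ) ^ 2) ≤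
          ((M g P P).card : ℝ)) ∧
    (P.card : ℝ) ^ (-(δ / 2)) * ((P.card : ℝ) ^ 6 / ((dst P).card : ℝ) ^ 3) ≤ (S.card : ℝ)

open Filter in
/-- **Assembly**: Theorem R and Theorem G imply the main statement. -/
theorem main_of2 (hR : RStmt) (hG : GStmt2) : MainStmt := by
  classical
  intro δ hδ
  obtain ⟨n0, hG⟩ := hG δ hδ
  obtain ⟨K1, C, hC, hR⟩ := hR δ hδ
  have t1 := tendsto_rpow_atTop (show 0 < 5 / 2 * δ by positivity)
  have t2 := tendsto_rpow_atTop (show 0 < 2 / 3 + 3 / 2 * δ by positivity)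
  have t3 := tendsto_rpow_atTop (show 0 < δ / 2 by positivity)
  obtain ⟨N, hN⟩ := Filter.eventually_atTop.1 (((t1.eventually_ge_atTop (2 : ℝ)).and
    (t2.eventually_ge_atTop (2 * (K1 : ℝ)))).and (t3.eventually_gt_atTop (8 * C)))
  refine ⟨max n0 (⌈max N 1⌉₊), ?_⟩
  intro P hP
  by_contra hcon
  push Not at hcon
  have hn0 : n0 ≤ P.card := le_trans (le_max_left _ _) hP
  have hnN : max N 1 ≤ (P.card : ℝ) :=
    (Nat.le_ceil _).trans (by exact_mod_cast le_trans (le_max_right _ _) hP)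
  have hn1 : (1 : ℝ) ≤ P.card := (le_max_right _ _).trans hnN
  obtain ⟨⟨a1, a2⟩, a3⟩ := hN _ ((le_max_left _ _).trans hnN)
  set n : ℝ := ((P.card : ℕ) : ℝ) with hn
  have hnpos : 0 < n := by linarith
  set c : ℝ := n ^ (-(δ / 2)) with hcdef
  have hc : 0 < c := Real.rpow_pos_of_pos hnpos _
  have hdst : (dst P).card = ((P ×ˢ P).image (fun q => ∑ k, (q.1 k - q.2 k) ^ 2)).card := rfl
  have hPne : P.Nonempty := by
    have h0 : (0 : ℝ) < ((P.card : ℕ) : ℝ) := hnpos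
    exact Finset.card_pos.1 (by exact_mod_cast h0)
  set t : ℝ := (((dst P).card : ℕ) : ℝ) with ht
  have ht1 : 1 ≤ t := by
    have : 1 ≤ (dst P).card := by
      rw [Nat.one_le_iff_ne_zero, ← Nat.pos_iff_ne_zero, Finset.card_pos]
      obtain ⟨p, hp⟩ := hPne
      exact ⟨sqd p p, Finset.mem_image.2 ⟨(p, p), Finset.mem_product.2 ⟨hp, hp⟩, rfl⟩⟩
    rw [ht]
    exact_mod_cast this
  have htpos : 0 < t := by linarith
  have htn : t ≤ n ^ ((2 : ℝ) / 3 - δ) := by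
    rw [ht, hdst]
    exact hcon.le
  obtain ⟨S, hS, hSc⟩ := hG P hn0 htn
  -- choice of the isometries
  have hch : ∀ q : ((V3 × V3 × V3) × (V3 × V3 × V3)), ∃ g : Iso, q ∈ S →
      Orth g ∧ act g q.1.1 = q.2.1 ∧ act g q.1.2.1 = q.2.2.1 ∧ act g q.1.2.2 = q.2.2.2 ∧
        c * (n ^ 2 / t ^ 2) ≤ ((M g P P).card : ℝ) := by
    intro q
    by_cases hq : q ∈ S
    · obtain ⟨-, -, -, -, -, -, g, hg⟩ := hS q hq
      exact ⟨g, fun _ => hg⟩
    · exact ⟨(1, 0), fun h => absurd h hq⟩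
  choose φ hφ using hch
  set G : Finset Iso := S.image φ with hGdef
  have hGorth : ∀ g ∈ G, Orth g := by
    intro g hg
    obtain ⟨q, hq, rfl⟩ := Finset.mem_image.1 hg
    exact (hφ q hq).1
  have hGrich : ∀ g ∈ G, c * (n ^ 2 / t ^ 2) ≤ ((M g P P).card : ℝ) := by
    intro g hg
    obtain ⟨q, hq, rfl⟩ := Finset.mem_image.1 hg
    exact (hφ q hq).2.2.2.2
  have h1 := card_triples P S φ G (fun q hq => Finset.mem_image_of_mem _ hq) (by
    intro q hq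
    obtain ⟨b1, b2, b3, b4, b5, b6, -⟩ := hS q hq
    obtain ⟨-, e1, e2, e3, -⟩ := hφ q hq
    exact ⟨b1, b2, b3, b4, b5, b6, e1, e2, e3⟩)
  -- powers
  have p1 : n ^ ((2 : ℝ) / 3 + 2 * δ) * t ^ 2 ≤ n ^ 2 := by
    have : t ^ 2 ≤ (n ^ ((2 : ℝ) / 3 - δ)) ^ 2 := pow_le_pow_left₀ htpos.le htn 2
    calc n ^ ((2 : ℝ) / 3 + 2 * δ) * t ^ 2 ≤
          n ^ ((2 : ℝ) / 3 + 2 * δ) * (n ^ ((2 : ℝ) / 3 - δ)) ^ 2 :=
          mul_le_mul_of_nonneg_left this (by positivity)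
      _ = n ^ 2 := by
          rw [← Real.rpow_natCast, ← Real.rpow_mul hnpos.le, ← Real.rpow_add hnpos,
            ← Real.rpow_natCast]
          congr 1
          push_cast
          ring
  have p2 : n ^ ((2 : ℝ) / 3 + 2 * δ) ≤ n ^ 2 / t ^ 2 := by
    rw [le_div_iff₀ (by positivity)]
    exact p1
  have p3 : n ^ ((4 : ℝ) + 3 * δ) ≤ n ^ 6 / t ^ 3 := by
    rw [le_div_iff₀ (by positivity)]
    have : t ^ 3 ≤ (n ^ ((2 : ℝ) / 3 - δ)) ^ 3 := pow_le_pow_left₀ htpos.le htn 3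
    calc n ^ ((4 : ℝ) + 3 * δ) * t ^ 3 ≤
          n ^ ((4 : ℝ) + 3 * δ) * (n ^ ((2 : ℝ) / 3 - δ)) ^ 3 :=
          mul_le_mul_of_nonneg_left this (by positivity)
      _ = n ^ 6 := by
          rw [← Real.rpow_natCast, ← Real.rpow_mul hnpos.le, ← Real.rpow_add hnpos,
            ← Real.rpow_natCast]
          congr 1
          push_cast
          ring
  -- every g of G is rich
  have hρ : ∀ g ∈ G, ((M g P P).card : ℝ) ≤ 2 * (rho (M g P P) : ℝ) ∧ K1 ≤ rho (M g P P) := by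
    intro g hg
    have b1 := hGrich g hg
    have b2 : ((M g P P).card : ℝ) ≤ (rho (M g P P) : ℝ) + t := by
      rw [ht]
      exact_mod_cast card_M_le P g
    have b3 : 2 * t ≤ ((M g P P).card : ℝ) := by
      have e : n ^ ((2 : ℝ) / 3 + 2 * δ) = n ^ ((2 : ℝ) / 3 - δ) * n ^ (3 * δ) := by
        rw [← Real.rpow_add hnpos]
        congr 1
        ring
      have e2 : 2 ≤ c * n ^ (3 * δ) := by
        rw [hcdef, ← Real.rpow_add hnpos]
        refine a1.trans (le_of_eq ?_)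
        congr 1
        ring
      calc 2 * t ≤ 2 * n ^ ((2 : ℝ) / 3 - δ) := by linarith
        _ ≤ (c * n ^ (3 * δ)) * n ^ ((2 : ℝ) / 3 - δ) :=
            mul_le_mul_of_nonneg_right e2 (by positivity)
        _ = c * n ^ ((2 : ℝ) / 3 + 2 * δ) := by rw [e]; ring
        _ ≤ c * (n ^ 2 / t ^ 2) := mul_le_mul_of_nonneg_left p2 hc.le
        _ ≤ _ := b1
    have b4 : ((M g P P).card : ℝ) ≤ 2 * (rho (M g P P) : ℝ) := by linarith
    refine ⟨b4, ?_⟩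
    have b5 : 2 * (K1 : ℝ) ≤ ((M g P P).card : ℝ) := by
      calc 2 * (K1 : ℝ) ≤ n ^ ((2 : ℝ) / 3 + 3 / 2 * δ) := a2
        _ = c * n ^ ((2 : ℝ) / 3 + 2 * δ) := by
            rw [hcdef, ← Real.rpow_add hnpos]
            congr 1
            ring
        _ ≤ c * (n ^ 2 / t ^ 2) := mul_le_mul_of_nonneg_left p2 hc.le
        _ ≤ _ := b1
    have b6 : (K1 : ℝ) ≤ (rho (M g P P) : ℝ) := by linarith
    exact_mod_cast b6
  have hR' := hR P P G hGorth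
  unfold Rf at hR'
  have h2 : (S.card : ℝ) ≤ ∑ g ∈ G, ((M g P P).card : ℝ) ^ 3 := by exact_mod_cast h1
  have h3 : ∑ g ∈ G, ((M g P P).card : ℝ) ^ 3 ≤ 8 *
      ∑ g ∈ G, (if K1 ≤ rho (M g P P) then ((rho (M g P P) : ℕ) : ℝ) ^ 3 else 0) := by
    rw [Finset.mul_sum]
    refine Finset.sum_le_sum (fun g hg => ?_)
    obtain ⟨q1, q2⟩ := hρ g hg
    rw [if_pos q2]
    calc ((M g P P).card : ℝ) ^ 3 ≤ (2 * (rho (M g P P) : ℝ)) ^ 3 :=
          pow_le_pow_left₀ (Nat.cast_nonneg _) q1 3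
      _ = _ := by ring
  have h4 : ((P.card : ℝ) * P.card) ^ (2 + δ) = n ^ ((4 : ℝ) + 2 * δ) := by
    rw [← hn, ← sq, ← Real.rpow_natCast, ← Real.rpow_mul hnpos.le]
    congr 1
    push_cast
    ring
  rw [h4] at hR'
  have h5 : c * n ^ ((4 : ℝ) + 3 * δ) ≤ 8 * (C * n ^ ((4 : ℝ) + 2 * δ)) := by
    calc c * n ^ ((4 : ℝ) + 3 * δ) ≤ c * (n ^ 6 / t ^ 3) := mul_le_mul_of_nonneg_left p3 hc.le
      _ ≤ S.card := hSc
      _ ≤ _ := h2
      _ ≤ _ := h3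
      _ ≤ _ := by linarith
  have e3 : n ^ ((4 : ℝ) + 3 * δ) = n ^ ((4 : ℝ) + 2 * δ) * n ^ δ := by
    rw [← Real.rpow_add hnpos]
    congr 1
    ring
  rw [e3] at h5
  have h6 : 0 < n ^ ((4 : ℝ) + 2 * δ) := Real.rpow_pos_of_pos hnpos _
  have h7 : c * n ^ δ ≤ 8 * C := by
    by_contra hh
    push Not at hh
    have := mul_lt_mul_of_pos_right hh h6
    linarith
  have h8 : c * n ^ δ = n ^ (δ / 2) := by
    rw [hcdef, ← Real.rpow_add hnpos]
    congr 1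
    ring
  rw [h8] at h7
  linarith

end Vale.Agent.P054.Fin
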