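import Vale.Agent.P054.Fin.GStmt2
import Vale.Agent.P054.R.Main
import Vale.Agent.P054.Y.GF.Main

/-! P054: `g_3(n) ≥ c n^(2/3 - ε)` in Euclidean space, unconditional. -/

set_option autoImplicit false
set_option linter.all false

namespace Vale.Agent.P054.Fin

open scoped Classical in
/-- distinct distances in `ℝ³`: at least `c n^(2/3 - ε)` -/
theorem euclid_two_thirds (ε : ℝ) (hε : 0 < ε) : ∃ c : ℝ, 0 < c ∧
    ∀ P : Finset (EuclideanSpace ℝ (Fin 3)), 2 ≤ P.card →
      c * (P.card : ℝ) ^ ((2 : ℝ) / 3 - ε) ≤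
        (((P.offDiag).image (fun p => dist p.1 p.2)).card : ℝ) :=
  space_two_thirds (main_of2 Vale.Agent.P054.R.r_stmt Vale.Agent.P054.Y.GF.g_stmt) ε hε

end Vale.Agent.P054.Fin
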