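import Vale.Agent.P054.R.Basic
import Vale.Agent.P054.Fin.Final

/-! P054, final arithmetic: Theorem R and Theorem G give the exponent `2/3 - δ`. -/

set_option autoImplicit false
set_option linter.all false

namespace Vale.Agent.P054.Fin

open Finset Matrix Vale.Agent.P054.R

/-- squared distance -/
def sqd (a b : V3) : ℝ := ∑ k, (a k - b k) ^ 2

open scoped Classical in
/-- the squared distances of `P`, `0` included -/
noncomputable def dst (P : Finset V3) : Finset ℝ := (P ×ˢ P).image (fun q => sqd q.1 q.2)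

/-- Output of block G: if there are few distances, there are at least `c n^6 / τ^3` pairs of
congruent triples that are matched by an isometry with at least `c n^2 / τ^2` matched points. -/
def GStmt : Prop := ∀ δ : ℝ, 0 < δ → ∃ c : ℝ, 0 < c ∧ ∃ n0 : ℕ, ∀ P : Finset V3, n0 ≤ P.card →
  ((dst P).card : ℝ) ≤ (P.card : ℝ) ^ ((2 : ℝ) / 3 - δ) →
  ∃ S : Finset ((V3 × V3 × V3) × (V3 × V3 × V3)),
    (∀ q ∈ S, q.1.1 ∈ P ∧ q.1.2.1 ∈ P ∧ q.1.2.2 ∈ P ∧ q.2.1 ∈ P ∧ q.2.2.1 ∈ P ∧ q.2.2.2 ∈ P ∧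
      ∃ g : Iso, Orth g ∧ act g q.1.1 = q.2.1 ∧ act g q.1.2.1 = q.2.2.1 ∧
        act g q.1.2.2 = q.2.2.2 ∧
        c * ((P.card : ℝ) ^ 2 / ((dst P).card : ℝ) ^ 2) ≤ ((M g P P).card : ℝ)) ∧
    c * ((P.card : ℝ) ^ 6 / ((dst P).card : ℝ) ^ 3) ≤ (S.card : ℝ)


theorem onL_param {x b a a' : V3} (hb : b ≠ 0) (h : OnL x b a) (h' : OnL x b a')
    (i : Fin 3) : (a i - a' i) * (b ⬝ᵥ b) = ((a ⬝ᵥ b) - (a' ⬝ᵥ b)) * b i := by
  unfold OnL at h h'
  rw [cross_apply] at h h'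
  have h0 := congrFun h 0
  have h1 := congrFun h 1
  have h2 := congrFun h 2
  have h0' := congrFun h' 0
  have h1' := congrFun h' 1
  have h2' := congrFun h' 2
  simp [Pi.sub_apply] at h0 h1 h2 h0' h1' h2'
  simp only [dotProduct, Fin.sum_univ_three]
  fin_cases i
  · simp
    linear_combination (b 2) * (h1' - h1) + (b 1) * (h2' - h2) * (-1)
  · simp
    linear_combination (b 2) * (h0' - h0) * (-1) + (b 0) * (h2' - h2)
  · simp
    linear_combination (b 1) * (h0' - h0) + (b 0) * (h1' - h1) * (-1)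

open scoped Classical in
/-- a line contains at most as many points as there are distances -/
theorem on_le (P : Finset V3) (x b : V3) (hb : b ≠ 0) : on P x b ≤ (dst P).card := by
  classical
  have hbb : 0 < b ⬝ᵥ b := by
    rcases lt_or_eq_of_le (show 0 ≤ b ⬝ᵥ b from Finset.sum_nonneg (fun i _ => mul_self_nonneg _))
      with h | h
    · exact h
    · exfalso
      apply hb
      funext i
      have := (Finset.sum_eq_zero_iff_of_nonneg (fun i _ => mul_self_nonneg (b i))).1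
        (show ∑ i, b i * b i = 0 from h.symm) i (Finset.mem_univ _)
      simpa using this
  unfold on
  set L := P.filter (fun a => OnL x b a) with hL
  by_cases hne : L.Nonempty
  · obtain ⟨a0, ha0, hmin⟩ := Finset.exists_min_image L (fun a => a ⬝ᵥ b) hne
    have ha0' := Finset.mem_filter.1 ha0
    refine Finset.card_le_card_of_injOn (fun a => sqd a0 a) ?_ ?_
    · intro a ha
      have ha' := Finset.mem_filter.1 (Finset.mem_coe.1 ha)
      exact Finset.mem_coe.2 (Finset.mem_image.2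
        ⟨(a0, a), Finset.mem_product.2 ⟨ha0'.1, ha'.1⟩, rfl⟩)
    · intro a ha a' ha' h
      have h1 := Finset.mem_filter.1 (Finset.mem_coe.1 ha)
      have h2 := Finset.mem_filter.1 (Finset.mem_coe.1 ha')
      have key : ∀ c, OnL x b c → sqd a0 c * (b ⬝ᵥ b) = ((c ⬝ᵥ b) - (a0 ⬝ᵥ b)) ^ 2 := by
        intro c hc
        have e : ∀ i, (a0 i - c i) * (b ⬝ᵥ b) = ((a0 ⬝ᵥ b) - (c ⬝ᵥ b)) * b i :=
          fun i => onL_param hb ha0'.2 hc i
        have h3 : sqd a0 c * (b ⬝ᵥ b) * (b ⬝ᵥ b) = ((c ⬝ᵥ b) - (a0 ⬝ᵥ b)) ^ 2 * (b ⬝ᵥ b) := by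
          have : sqd a0 c * (b ⬝ᵥ b) * (b ⬝ᵥ b) = ∑ i, ((a0 i - c i) * (b ⬝ᵥ b)) ^ 2 := by
            unfold sqd
            rw [Finset.sum_mul, Finset.sum_mul]
            exact Finset.sum_congr rfl (fun i _ => by ring)
          rw [this]
          have h4 : ((c ⬝ᵥ b) - (a0 ⬝ᵥ b)) ^ 2 * (b ⬝ᵥ b) =
              ∑ i, ((c ⬝ᵥ b) - (a0 ⬝ᵥ b)) ^ 2 * (b i * b i) := by
            rw [← Finset.mul_sum]
            rfl
          rw [h4]
          refine Finset.sum_congr rfl (fun i _ => ?_)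
          rw [e i]
          ring
        exact mul_right_cancel₀ hbb.ne' h3
      have k1 := key a h1.2
      have k2 := key a' h2.2
      replace h : sqd a0 a = sqd a0 a' := h
      rw [h, k2] at k1
      have m1 : a0 ⬝ᵥ b ≤ a ⬝ᵥ b := hmin a (Finset.mem_coe.1 ha)
      have m2 : a0 ⬝ᵥ b ≤ a' ⬝ᵥ b := hmin a' (Finset.mem_coe.1 ha')
      have h5 : (a' ⬝ᵥ b) - (a0 ⬝ᵥ b) = (a ⬝ᵥ b) - (a0 ⬝ᵥ b) :=
        (sq_eq_sq₀ (by linarith) (by linarith)).1 k1
      have h6 : (a ⬝ᵥ b) - (a' ⬝ᵥ b) = 0 := by linarith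
      funext i
      have h7 := onL_param hb h1.2 h2.2 i
      rw [h6, zero_mul] at h7
      rcases mul_eq_zero.1 h7 with h8 | h8
      · linarith
      · exact absurd h8 hbb.ne'
  · rw [Finset.not_nonempty_iff_eq_empty.1 hne]
    simp

open scoped Classical in
theorem M_sub (g : Iso) (X Y : Finset V3) : M g X Y ⊆ X := Finset.filter_subset _ _

theorem card_M_le (P : Finset V3) (g : Iso) :
    (M g P P).card ≤ rho (M g P P) + (dst P).card := by
  classical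
  obtain ⟨x, b, hb, h⟩ := rho_spec (M g P P)
  rw [← off_add_on (M g P P) x b, h]
  refine Nat.add_le_add_left (le_trans ?_ (on_le P x b hb)) _
  unfold on
  exact Finset.card_le_card (Finset.filter_subset_filter _ (M_sub g P P))

/-- the number of triples is at most the sum of the cubes -/
theorem card_triples (P : Finset V3) (S : Finset ((V3 × V3 × V3) × (V3 × V3 × V3)))
    (φ : ((V3 × V3 × V3) × (V3 × V3 × V3)) → Iso) (G : Finset Iso) (hφ : ∀ q ∈ S, φ q ∈ G)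
    (hS : ∀ q ∈ S, q.1.1 ∈ P ∧ q.1.2.1 ∈ P ∧ q.1.2.2 ∈ P ∧ q.2.1 ∈ P ∧ q.2.2.1 ∈ P ∧
      q.2.2.2 ∈ P ∧ act (φ q) q.1.1 = q.2.1 ∧ act (φ q) q.1.2.1 = q.2.2.1 ∧
        act (φ q) q.1.2.2 = q.2.2.2) :
    S.card ≤ ∑ g ∈ G, (M g P P).card ^ 3 := by
  classical
  rw [Finset.card_eq_sum_card_fiberwise hφ]
  refine Finset.sum_le_sum (fun g hg => ?_)
  have h3 : (M g P P).card ^ 3 = ((M g P P) ×ˢ ((M g P P) ×ˢ (M g P P))).card := by
    rw [Finset.card_product, Finset.card_product]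
    ring
  rw [h3]
  refine Finset.card_le_card_of_injOn (fun q => q.1) ?_ ?_
  · intro q hq
    obtain ⟨hq, hg'⟩ := Finset.mem_filter.1 (Finset.mem_coe.1 hq)
    obtain ⟨h1, h2, h3, h4, h5, h6, e1, e2, e3⟩ := hS q hq
    rw [hg'] at e1 e2 e3
    rw [Finset.mem_coe, Finset.mem_product, Finset.mem_product]
    unfold M
    refine ⟨Finset.mem_filter.2 ⟨h1, by rw [e1]; exact h4⟩,
      Finset.mem_filter.2 ⟨h2, by rw [e2]; exact h5⟩,
      Finset.mem_filter.2 ⟨h3, by rw [e3]; exact h6⟩⟩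
  · intro q hq q' hq' h
    obtain ⟨hq, hg'⟩ := Finset.mem_filter.1 (Finset.mem_coe.1 hq)
    obtain ⟨hq', hg''⟩ := Finset.mem_filter.1 (Finset.mem_coe.1 hq')
    obtain ⟨-, -, -, -, -, -, e1, e2, e3⟩ := hS q hq
    obtain ⟨-, -, -, -, -, -, e1', e2', e3'⟩ := hS q' hq'
    simp only at h
    rw [hg'] at e1 e2 e3
    rw [hg'', ← h] at e1' e2' e3'
    refine Prod.ext h (Prod.ext ?_ (Prod.ext ?_ ?_))
    · rw [← e1, ← e1']
    · rw [← e2, ← e2']
    · rw [← e3, ← e3']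

open Filter in
/-- **Assembly**: Theorem R and Theorem G imply the main statement. -/
theorem main_of_alt (hR : RStmt) (hG : GStmt) : MainStmt := by
  classical
  intro δ hδ
  obtain ⟨c, hc, n0, hG⟩ := hG δ hδ
  obtain ⟨K1, C, hC, hR⟩ := hR δ hδ
  have t1 := tendsto_rpow_atTop (show 0 < 3 * δ by positivity)
  have t2 := tendsto_rpow_atTop (show 0 < 2 / 3 + 2 * δ by positivity)
  have t3 := tendsto_rpow_atTop hδ
  obtain ⟨N, hN⟩ := Filter.eventually_atTop.1 (((t1.eventually_ge_atTop (2 / c)).and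
    (t2.eventually_ge_atTop (2 * K1 / c))).and (t3.eventually_gt_atTop (8 * C / c)))
  refine ⟨max n0 (⌈max N 1⌉₊), ?_⟩
  intro P hP
  by_contra hcon
  push Not at hcon
  have hn0 : n0 ≤ P.card := le_trans (le_max_left _ _) hP
  have hnN : max N 1 ≤ (P.card : ℝ) :=
    (Nat.le_ceil _).trans (by exact_mod_cast le_trans (le_max_right _ _) hP)
  have hn1 : (1 : ℝ) ≤ P.card := (le_max_right _ _).trans hnN
  obtain ⟨⟨a1, a2⟩, a3⟩ := hN _ ((le_max_left _ _).trans hnN)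
  set n : ℝ := ((P.card : ℕ) : ℝ) with hn
  have hnpos : 0 < n := by linarith
  have hdst : (dst P).card = ((P ×ˢ P).image (fun q => ∑ k, (q.1 k - q.2 k) ^ 2)).card := rfl
  have hPne : P.Nonempty := by
    have h0 : (0 : ℝ) < ((P.card : ℕ) : ℝ) := hnpos
    exact Finset.card_pos.1 (by exact_mod_cast h0)
  set t : ℝ := (((dst P).card : ℕ) : ℝ) with ht
  have ht1 : 1 ≤ t := by
    have : 1 ≤ (dst P).card := by
      rw [Nat.one_le_iff_ne_zero, ← Nat.pos_iff_ne_zero, Finset.card_pos]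
      obtain ⟨p, hp⟩ := hPne
      exact ⟨sqd p p, Finset.mem_image.2 ⟨(p, p), Finset.mem_product.2 ⟨hp, hp⟩, rfl⟩⟩
    rw [ht]
    exact_mod_cast this
  have htpos : 0 < t := by linarith
  have htn : t ≤ n ^ ((2 : ℝ) / 3 - δ) := by
    rw [ht, hdst]
    exact hcon.le
  obtain ⟨S, hS, hSc⟩ := hG P hn0 htn
  -- choice of the isometries
  have hch : ∀ q : ((V3 × V3 × V3) × (V3 × V3 × V3)), ∃ g : Iso, q ∈ S →
      Orth g ∧ act g q.1.1 = q.2.1 ∧ act g q.1.2.1 = q.2.2.1 ∧ act g q.1.2.2 = q.2.2.2 ∧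
        c * (n ^ 2 / t ^ 2) ≤ ((M g P P).card : ℝ) := by
    intro q
    by_cases hq : q ∈ S
    · obtain ⟨-, -, -, -, -, -, g, hg⟩ := hS q hq
      exact ⟨g, fun _ => hg⟩
    · exact ⟨(1, 0), fun h => absurd h hq⟩
  choose φ hφ using hch
  set G : Finset Iso := S.image φ with hGdef
  have hGorth : ∀ g ∈ G, Orth g := by
    intro g hg
    obtain ⟨q, hq, rfl⟩ := Finset.mem_image.1 hg
    exact (hφ q hq).1
  have hGrich : ∀ g ∈ G, c * (n ^ 2 / t ^ 2) ≤ ((M g P P).card : ℝ) := by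
    intro g hg
    obtain ⟨q, hq, rfl⟩ := Finset.mem_image.1 hg
    exact (hφ q hq).2.2.2.2
  have h1 := card_triples P S φ G (fun q hq => Finset.mem_image_of_mem _ hq) (by
    intro q hq
    obtain ⟨b1, b2, b3, b4, b5, b6, -⟩ := hS q hq
    obtain ⟨-, e1, e2, e3, -⟩ := hφ q hq
    exact ⟨b1, b2, b3, b4, b5, b6, e1, e2, e3⟩)
  -- powers
  have p1 : n ^ ((2 : ℝ) / 3 + 2 * δ) * t ^ 2 ≤ n ^ 2 := by
    have : t ^ 2 ≤ (n ^ ((2 : ℝ) / 3 - δ)) ^ 2 := pow_le_pow_left₀ htpos.le htn 2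
    calc n ^ ((2 : ℝ) / 3 + 2 * δ) * t ^ 2 ≤
          n ^ ((2 : ℝ) / 3 + 2 * δ) * (n ^ ((2 : ℝ) / 3 - δ)) ^ 2 :=
          mul_le_mul_of_nonneg_left this (by positivity)
      _ = n ^ 2 := by
          rw [← Real.rpow_natCast, ← Real.rpow_mul hnpos.le, ← Real.rpow_add hnpos,
            ← Real.rpow_natCast]
          congr 1
          push_cast
          ring
  have p2 : n ^ ((2 : ℝ) / 3 + 2 * δ) ≤ n ^ 2 / t ^ 2 := by
    rw [le_div_iff₀ (by positivity)]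
    exact p1
  have p3 : n ^ ((4 : ℝ) + 3 * δ) ≤ n ^ 6 / t ^ 3 := by
    rw [le_div_iff₀ (by positivity)]
    have : t ^ 3 ≤ (n ^ ((2 : ℝ) / 3 - δ)) ^ 3 := pow_le_pow_left₀ htpos.le htn 3
    calc n ^ ((4 : ℝ) + 3 * δ) * t ^ 3 ≤
          n ^ ((4 : ℝ) + 3 * δ) * (n ^ ((2 : ℝ) / 3 - δ)) ^ 3 :=
          mul_le_mul_of_nonneg_left this (by positivity)
      _ = n ^ 6 := by
          rw [← Real.rpow_natCast, ← Real.rpow_mul hnpos.le, ← Real.rpow_add hnpos,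
            ← Real.rpow_natCast]
          congr 1
          push_cast
          ring
  -- every g of G is rich
  have hρ : ∀ g ∈ G, ((M g P P).card : ℝ) ≤ 2 * (rho (M g P P) : ℝ) ∧ K1 ≤ rho (M g P P) := by
    intro g hg
    have b1 := hGrich g hg
    have b2 : ((M g P P).card : ℝ) ≤ (rho (M g P P) : ℝ) + t := by
      rw [ht]
      exact_mod_cast card_M_le P g
    have b3 : 2 * t ≤ ((M g P P).card : ℝ) := by
      have e : n ^ ((2 : ℝ) / 3 + 2 * δ) = n ^ ((2 : ℝ) / 3 - δ) * n ^ (3 * δ) := by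
        rw [← Real.rpow_add hnpos]
        congr 1
        ring
      have e2 : 2 ≤ c * n ^ (3 * δ) := by
        rw [div_le_iff₀ hc] at a1
        linarith
      calc 2 * t ≤ 2 * n ^ ((2 : ℝ) / 3 - δ) := by linarith
        _ ≤ (c * n ^ (3 * δ)) * n ^ ((2 : ℝ) / 3 - δ) :=
            mul_le_mul_of_nonneg_right e2 (by positivity)
        _ = c * n ^ ((2 : ℝ) / 3 + 2 * δ) := by rw [e]; ring
        _ ≤ c * (n ^ 2 / t ^ 2) := mul_le_mul_of_nonneg_left p2 hc.le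
        _ ≤ _ := b1
    have b4 : ((M g P P).card : ℝ) ≤ 2 * (rho (M g P P) : ℝ) := by linarith
    refine ⟨b4, ?_⟩
    have b5 : 2 * (K1 : ℝ) ≤ ((M g P P).card : ℝ) := by
      rw [div_le_iff₀ hc] at a2
      calc 2 * (K1 : ℝ) ≤ n ^ ((2 : ℝ) / 3 + 2 * δ) * c := a2
        _ = c * n ^ ((2 : ℝ) / 3 + 2 * δ) := mul_comm _ _
        _ ≤ c * (n ^ 2 / t ^ 2) := mul_le_mul_of_nonneg_left p2 hc.le
        _ ≤ _ := b1
    have b6 : (K1 : ℝ) ≤ (rho (M g P P) : ℝ) := by linarith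
    exact_mod_cast b6
  have hR' := hR P P G hGorth
  unfold Rf at hR'
  have h2 : (S.card : ℝ) ≤ ∑ g ∈ G, ((M g P P).card : ℝ) ^ 3 := by exact_mod_cast h1
  have h3 : ∑ g ∈ G, ((M g P P).card : ℝ) ^ 3 ≤ 8 *
      ∑ g ∈ G, (if K1 ≤ rho (M g P P) then ((rho (M g P P) : ℕ) : ℝ) ^ 3 else 0) := by
    rw [Finset.mul_sum]
    refine Finset.sum_le_sum (fun g hg => ?_)
    obtain ⟨q1, q2⟩ := hρ g hg
    rw [if_pos q2]
    calc ((M g P P).card : ℝ) ^ 3 ≤ (2 * (rho (M g P P) : ℝ)) ^ 3 :=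
          pow_le_pow_left₀ (Nat.cast_nonneg _) q1 3
      _ = _ := by ring
  have h4 : ((P.card : ℝ) * P.card) ^ (2 + δ) = n ^ ((4 : ℝ) + 2 * δ) := by
    rw [← hn, ← sq, ← Real.rpow_natCast, ← Real.rpow_mul hnpos.le]
    congr 1
    push_cast
    ring
  rw [h4] at hR'
  have h5 : c * n ^ ((4 : ℝ) + 3 * δ) ≤ 8 * (C * n ^ ((4 : ℝ) + 2 * δ)) := by
    calc c * n ^ ((4 : ℝ) + 3 * δ) ≤ c * (n ^ 6 / t ^ 3) := mul_le_mul_of_nonneg_left p3 hc.le
      _ ≤ S.card := hSc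
      _ ≤ _ := h2
      _ ≤ _ := h3
      _ ≤ _ := by linarith
  have e3 : n ^ ((4 : ℝ) + 3 * δ) = n ^ ((4 : ℝ) + 2 * δ) * n ^ δ := by
    rw [← Real.rpow_add hnpos]
    congr 1
    ring
  rw [e3] at h5
  have h6 : 0 < n ^ ((4 : ℝ) + 2 * δ) := Real.rpow_pos_of_pos hnpos _
  have h7 : c * n ^ δ ≤ 8 * C := by
    by_contra hh
    push Not at hh
    have := mul_lt_mul_of_pos_right hh h6
    linarith
  rw [div_lt_iff₀ hc] at a3
  linarith

end Vale.Agent.P054.Fin
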