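import Vale.Agent.P054.R.Defs

/-! P054: the interface between block G (lower bound) and the final assembly. -/

set_option linter.all false
set_option autoImplicit false

namespace Vale.Agent.P054.Fin

open Finset Matrix Vale.Agent.P054.R

open scoped Classical in
/-- number of squared distances of `P` (including `0`) -/
noncomputable def dn (P : Finset V3) : ℕ :=
  ((P ×ˢ P).image (fun q => ∑ k, (q.1 k - q.2 k) ^ 2)).card

open scoped Classical in
/-- the congruent pairs of noncollinear triples `((a, b, b'), (c, d, d'))` of `P`, carried by an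
isometry (proper or improper) that moves at least `r` points of `P` into `P` -/
noncomputable def richTriples (P : Finset V3) (r : ℝ) : Finset ((V3 × V3 × V3) × (V3 × V3 × V3)) :=
  ((P ×ˢ P ×ˢ P) ×ˢ (P ×ˢ P ×ˢ P)).filter (fun t =>
    crossProduct (t.1.2.1 - t.1.1) (t.1.2.2 - t.1.1) ≠ 0 ∧
    ∃ g : Iso, Orth g ∧ act g t.1.1 = t.2.1 ∧ act g t.1.2.1 = t.2.2.1 ∧
      act g t.1.2.2 = t.2.2.2 ∧ r ≤ ((M g P P).card : ℝ))

/-- output of block G -/
def GOut : Prop := ∀ δ : ℝ, 0 < δ → ∃ c : ℝ, 0 < c ∧ ∃ n₀ : ℕ, ∀ P : Finset V3, n₀ ≤ P.card →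
  (dn P : ℝ) ≤ (P.card : ℝ) ^ ((2 : ℝ) / 3 - δ) →
  c * (P.card : ℝ) ^ 6 / (dn P : ℝ) ^ 3 ≤
    ((richTriples P (c * (P.card : ℝ) ^ 2 / (dn P : ℝ) ^ 2)).card : ℝ)

end Vale.Agent.P054.Fin
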